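import Vale.Agent.Lib.P031V.Final

namespace Vale.Agent.Results.P031.A0_Q2

open Filter Topology
open scoped Classical

/-- Erdős–Hall (1976): for every fixed real `c > 1`, `V(cx)/V(x) → c` as `x → ∞`, where
`V(x)` is the number of distinct values `v ≤ x` of Euler's totient function. -/
theorem result (c : ℝ) (hc : 1 < c) :
    Tendsto (fun x : ℝ =>
      (((Finset.Icc 1 ⌊c * x⌋₊).filter (fun v => ∃ n : ℕ, n.totient = v)).card : ℝ) /
      (((Finset.Icc 1 ⌊x⌋₊).filter (fun v => ∃ n : ℕ, n.totient = v)).card : ℝ)) atTop (𝓝 c) :=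
  Vale.Agent.Lib.P031V.totient_ratio c hc

end Vale.Agent.Results.P031.A0_Q2
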